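import Crest.Agent.Row211.Cover2
import Crest.Agent.Row211.Plane

set_option autoImplicit false

open MeasureTheory Module
open scoped ENNReal

namespace Crest.Agent.Row211

lemma isCompact_parallelogram (c a b : E3) : IsCompact {x : E3 | ∃ s ∈ Set.Icc (0 : ℝ) 1, ∃ t ∈ Set.Icc (0 : ℝ) 1,
      x = c + s • a + t • b} := by
  have h : {x : E3 | ∃ s ∈ Set.Icc (0 : ℝ) 1, ∃ t ∈ Set.Icc (0 : ℝ) 1, x = c + s • a + t • b} =
      (fun z : ℝ × ℝ => c + z.1 • a + z.2 • b) '' (Set.Icc 0 1 ×ˢ Set.Icc 0 1) := by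
    ext x
    constructor
    · rintro ⟨s, hs, t, ht, rfl⟩
      exact ⟨(s, t), ⟨hs, ht⟩, rfl⟩
    · rintro ⟨⟨s, t⟩, ⟨hs, ht⟩, rfl⟩
      exact ⟨s, hs, t, ht, rfl⟩
  rw [h]
  exact (isCompact_Icc.prod isCompact_Icc).image (by fun_prop)

/-- lift of a planar vector into the plane `x = 0`, scaled by `diag(1, h)` -/
noncomputable def lft (h : ℝ) (v : E2) : E3 := !₂[0, v 0, h * v 1]
/-- direction -/
noncomputable def dir3 (h : ℝ) (g : E2) : E3 := !₂[1, g 0, h * g 1]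

lemma dir3_ne (h : ℝ) (g : E2) : dir3 h g ≠ 0 := by
  intro h0
  have := congrArg (fun v : E3 => v 0) h0
  simp [dir3] at this

lemma norm_dir3 (h : ℝ) (g : E2) : ‖dir3 h g‖ = Real.sqrt (1 + (g 0) ^ 2 + h ^ 2 * (g 1) ^ 2) := by
  rw [EuclideanSpace.norm_eq]
  congr 1
  simp [dir3, Fin.sum_univ_three, mul_pow]

lemma inner2 (a b : E2) : inner ℝ a b = a 0 * b 0 + a 1 * b 1 := by
  simp [PiLp.inner_apply, Fin.sum_univ_two, mul_comm]

lemma normsq2 (a : E2) : ‖a‖ ^ 2 = a 0 ^ 2 + a 1 ^ 2 := by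
  rw [← real_inner_self_eq_norm_sq, inner2]; ring

lemma square_det {a b : E2} (hab : ‖b‖ = ‖a‖) (hi : inner ℝ a b = 0) : |a 0 * b 1 - a 1 * b 0| = ‖a‖ ^ 2 := by
  have h1 := normsq2 a
  have h2 := normsq2 b
  have h3 : a 0 * b 0 + a 1 * b 1 = 0 := by rw [← inner2]; exact hi
  have h4 : (a 0 * b 1 - a 1 * b 0) ^ 2 = (‖a‖ ^ 2) ^ 2 := by
    have : (‖a‖ ^ 2) ^ 2 = ‖a‖ ^ 2 * ‖b‖ ^ 2 := by rw [hab]; ring
    rw [this, h1, h2]
    linear_combination (-(a 0 * b 0 + a 1 * b 1)) * h3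
  rw [← Real.sqrt_sq_eq_abs, h4, Real.sqrt_sq (by positivity)]

/-- one open base -/
lemma exists_base (h : ℝ) (hh : 0 < h) (c a b g : E2) (hab : ‖b‖ = ‖a‖) (hi : inner ℝ a b = 0)
    (η : ℝ) (hη : 0 < η) :
    ∃ B : Set E3, (Bornology.IsBounded B ∧ ∃ O : Set E3, IsOpen O ∧ B = O ∩ {x | inner ℝ x (nrm (dir3 h g)) = 0}) ∧
      (μHE[2] B).toReal ≤ h * (‖a‖ ^ 2 / Real.sqrt (1 + (g 0) ^ 2 + h ^ 2 * (g 1) ^ 2)) + η ∧
      ∀ x : ℝ, ∀ s ∈ Set.Icc (0 : ℝ) 1, ∀ t ∈ Set.Icc (0 : ℝ) 1,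
        ∃ y ∈ B, ∃ τ : ℝ, lft h (c + s • a + t • b) + x • dir3 h g = y + τ • nrm (dir3 h g) := by
  have hd := dir3_ne h g
  have hu := norm_nrm hd
  set u := nrm (dir3 h g) with hudef
  set S := {x : E3 | ∃ s ∈ Set.Icc (0 : ℝ) 1, ∃ t ∈ Set.Icc (0 : ℝ) 1,
      x = proj u (lft h c) + s • proj u (lft h a) + t • proj u (lft h b)} with hS
  have hSc : IsCompact S := isCompact_parallelogram _ _ _
  have hSp : S ⊆ plane u := by
    rintro x ⟨s, hs, t, ht, rfl⟩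
    have g1 := inner_proj hu (lft h c)
    have g2 := inner_proj hu (lft h a)
    have g3 := inner_proj hu (lft h b)
    simp only [plane, Set.mem_ofPred_eq, inner_add_left, inner_smul_left, g1, g2, g3]
    simp
  have harea : μHE[2] S = ENNReal.ofReal (h * (‖a‖ ^ 2 / Real.sqrt (1 + (g 0) ^ 2 + h ^ 2 * (g 1) ^ 2))) := by
    rw [hS, area_proj_parallelogram hu]
    congr 1
    rw [hudef, nrm, det3_smul, abs_mul, abs_inv, abs_norm, norm_dir3]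
    have : det3 (lft h a) (lft h b) (dir3 h g) = h * (a 0 * b 1 - a 1 * b 0) := by
      simp [det3, lft, dir3]; ring
    rw [this, abs_mul, abs_of_pos hh, square_det hab hi]
    ring
  obtain ⟨O, hO1, hO2, hO3, hO4⟩ := exists_open_enlarge hu hSp hSc (ε := ENNReal.ofReal η)
    (by rw [Ne, ENNReal.ofReal_eq_zero]; push Not; exact hη)
  refine ⟨O ∩ plane u, ⟨hO2.subset Set.inter_subset_left, O, hO1, rfl⟩, ?_, ?_⟩
  · rw [harea] at hO4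
    have h1 := ENNReal.toReal_mono (ENNReal.add_ne_top.2 ⟨ENNReal.ofReal_ne_top, ENNReal.ofReal_ne_top⟩) hO4.le
    rw [ENNReal.toReal_add ENNReal.ofReal_ne_top ENNReal.ofReal_ne_top, ENNReal.toReal_ofReal (by positivity),
      ENNReal.toReal_ofReal hη.le] at h1
    exact h1
  · intro x s hs t ht
    have hmem : proj u (lft h (c + s • a + t • b)) ∈ S := by
      refine ⟨s, hs, t, ht, ?_⟩
      rw [← proj_smul, ← proj_smul, ← proj_add, ← proj_add]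
      congr 1
      ext k
      fin_cases k <;> simp [lft] <;> ring
    refine ⟨proj u (lft h (c + s • a + t • b)), ⟨hO3 hmem, hSp hmem⟩,
      inner ℝ (lft h (c + s • a + t • b)) u + x * ‖dir3 h g‖, ?_⟩
    have hdd : dir3 h g = ‖dir3 h g‖ • u := nrm_spec hd
    rw [proj, add_smul, mul_smul, ← hdd]
    abel

/-- S0329 from S0326 -/
theorem s0329_core
    (h M : ℝ) (hh : 0 < h) (D : Set (EuclideanSpace ℝ (Fin 2)))
    (V : EuclideanSpace ℝ (Fin 2) → EuclideanSpace ℝ (Fin 2)) (ε : ℝ) (hε : 0 < ε)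
    (k : ℕ) (c a b g : Fin k → EuclideanSpace ℝ (Fin 2))
    (hsq : ∀ i, a i ≠ 0 ∧ ‖b i‖ = ‖a i‖ ∧ inner ℝ (a i) (b i) = 0)
    (hcov : {z : ℝ × EuclideanSpace ℝ (Fin 2) | ∃ p ∈ D, abs z.1 ≤ M ∧ z.2 = p + z.1 • V p} ⊆
        ⋃ i, {z : ℝ × EuclideanSpace ℝ (Fin 2) | ∃ x ∈ Set.Icc (0 : ℝ) 1, ∃ y ∈ Set.Icc (0 : ℝ) 1,
          z.2 = c i + x • a i + y • b i + z.1 • g i})
    (hsum : ∑ i, ‖a i‖ ^ 2 / Real.sqrt (1 + (g i 0) ^ 2 + h ^ 2 * (g i 1) ^ 2) ≤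
        (∫ p in D, 1 / Real.sqrt (1 + (V p 0) ^ 2 + h ^ 2 * (V p 1) ^ 2)) + ε / (2 * h)) :
    ∃ (k : ℕ) (u : Fin k → EuclideanSpace ℝ (Fin 3)) (B : Fin k → Set (EuclideanSpace ℝ (Fin 3))),
      (∀ i, ‖u i‖ = 1) ∧
      (∀ i, Bornology.IsBounded (B i) ∧ ∃ O : Set (EuclideanSpace ℝ (Fin 3)), IsOpen O ∧
        B i = O ∩ {x | inner ℝ x (u i) = 0}) ∧
      {z : EuclideanSpace ℝ (Fin 3) | ∃ p ∈ D, ∃ x : ℝ, abs x ≤ M ∧
          z = !₂[x, p 0 + x * V p 0, h * (p 1 + x * V p 1)]} ⊆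
        ⋃ i, {z : EuclideanSpace ℝ (Fin 3) | ∃ y ∈ B i, ∃ τ : ℝ, z = y + τ • u i} ∧
      ∑ i, (μHE[2] (B i)).toReal ≤
        h * (∫ p in D, 1 / Real.sqrt (1 + (V p 0) ^ 2 + h ^ 2 * (V p 1) ^ 2)) + ε := by
  have hη : 0 < ε / (2 * (k + 1)) := by positivity
  choose B hB1 hB2 hB3 using fun i => exists_base h hh (c i) (a i) (b i) (g i) (hsq i).2.1 (hsq i).2.2
    (ε / (2 * (k + 1))) hη
  refine ⟨k, fun i => nrm (dir3 h (g i)), B, fun i => norm_nrm (dir3_ne _ _), hB1, ?_, ?_⟩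
  · rintro z ⟨p, hp, x, hx, rfl⟩
    have hz : ((x, p + x • V p) : ℝ × EuclideanSpace ℝ (Fin 2)) ∈
      {z : ℝ × EuclideanSpace ℝ (Fin 2) | ∃ p ∈ D, abs z.1 ≤ M ∧ z.2 = p + z.1 • V p} := ⟨p, hp, hx, rfl⟩
    have h1 := hcov hz
    rw [Set.mem_iUnion] at h1 ⊢
    obtain ⟨i, s, hs, t, ht, he⟩ := h1
    simp only at he
    refine ⟨i, ?_⟩
    obtain ⟨y, hy, τ, hτ⟩ := hB3 i x s hs t ht
    refine ⟨y, hy, τ, ?_⟩
    rw [← hτ]
    have e0 := congrArg (fun v : E2 => v 0) he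
    have e1 := congrArg (fun v : E2 => v 1) he
    simp only [PiLp.add_apply, PiLp.smul_apply, smul_eq_mul] at e0 e1
    ext j
    fin_cases j
    · simp [lft, dir3]
    · simp [lft, dir3]; linarith
    · simp [lft, dir3]
      rw [e1]; ring
  · calc ∑ i, (μHE[2] (B i)).toReal ≤ ∑ i, (h * (‖a i‖ ^ 2 / Real.sqrt (1 + (g i 0) ^ 2 + h ^ 2 * (g i 1) ^ 2)) + ε / (2 * (k + 1))) :=
          Finset.sum_le_sum fun i _ => hB2 i
      _ = h * (∑ i, ‖a i‖ ^ 2 / Real.sqrt (1 + (g i 0) ^ 2 + h ^ 2 * (g i 1) ^ 2)) + k * (ε / (2 * (k + 1))) := by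
          rw [Finset.sum_add_distrib, ← Finset.mul_sum]; simp
      _ ≤ h * ((∫ p in D, 1 / Real.sqrt (1 + (V p 0) ^ 2 + h ^ 2 * (V p 1) ^ 2)) + ε / (2 * h)) + ε / 2 := by
          have h1 : (k : ℝ) * (ε / (2 * (k + 1))) ≤ ε / 2 := by
            rw [mul_div_assoc', div_le_div_iff₀ (by positivity) (by norm_num)]
            nlinarith
          have h2 := mul_le_mul_of_nonneg_left hsum hh.le
          linarith
      _ = _ := by field_simp; ring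

end Crest.Agent.Row211
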